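import Vale.Agent.Lib.P113.Assemble

/-!
P113, everything except the program for the derivatives of the force: the forces are given in closed
form by finite rational data which are a primitive recursive function of the machine and the input.
-/

namespace Vale.Agent.Results.P113.ExplicitForces

open Vale.Agent.Lib.P113 Set
open scoped ContDiff

theorem result (ν : ℝ) (hν : 0 < ν) :
    ∃ (a : R3) (O : Set R3) (T0 P : ℝ) (data : Machine → List ℕ → FlowData),
      IsOpen O ∧ (∀ (x : R3) (i : Fin 3), x + Pi.single i 1 ∈ O ↔ x ∈ O) ∧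
      O = {x : R3 | ∃ n : ℤ, (n : ℝ) + 9 / 16 < x 2 ∧ x 2 < (n : ℝ) + 11 / 16} ∧
      Primrec₂ data ∧ 0 < P ∧
      (∀ M w, IsSmoothForce (force ν (data M w))) ∧
      (∀ M w t, T0 ≤ t → ∀ x, force ν (data M w) (t + P) x = force ν (data M w) t x) ∧
      (∀ M w w' t, T0 ≤ t → ∀ x, force ν (data M w) t x = force ν (data M w') t x) ∧
      ∀ M : Machine, M.Valid → ∀ w : List ℕ, (∀ s ∈ w, s ≤ M.1) →
        ∃ (u : ℝ → R3 → R3) (p : ℝ → R3 → ℝ),
          ContDiff ℝ ∞ (fun z : ℝ × R3 => u z.1 z.2) ∧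
          ContDiff ℝ ∞ (fun z : ℝ × R3 => p z.1 z.2) ∧
          (∀ T, 0 < T → IsClassicalSol ν (force ν (data M w)) T u p) ∧
          (∀ T, 0 < T → ∀ v q, IsClassicalSol ν (force ν (data M w)) T v q →
            ∀ t ∈ Icc (0 : ℝ) T, ∀ x, v t x = u t x ∧ q t x = p t x) ∧
          (∃ X, IsTrajectory u a X) ∧
          ∀ X, IsTrajectory u a X → ((∃ t, 0 ≤ t ∧ X t ∈ O) ↔ M.HaltsOn w) :=
  ⟨0, slab, 1, 10, flowData, slab_open, slab_periodic, rfl, primrec_flowData, by norm_num,
    fun M w => ⟨force_contDiff ν _, force_per ν _⟩,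
    fun M w t ht x => main_periodic ν M w t ht x,
    fun M w w' t ht x => main_indep ν M w w' t ht x,
    fun M hM w hw => (main_dyn ν hν M hM w hw).2⟩

end Vale.Agent.Results.P113.ExplicitForces
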