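import Vale.Agent.Lib.P113_helper29.Assembly

namespace Vale.Agent.Results.P113.ForcedNSHalting
open Vale.Agent.Lib.P113 Set
open scoped ContDiff

theorem result (ν : ℝ) (hν : 0 < ν) (hc : IsComputableReal ν) :
    ∃ (a : R3) (O : Set R3) (T0 : ℝ) (F : Machine → List ℕ → ℝ → R3 → R3)
      (compiler : Machine → List ℕ → Nat.Partrec.Code),
      IsOpen O ∧ (∀ (x : R3) (i : Fin 3), x + Pi.single i 1 ∈ O ↔ x ∈ O) ∧
      O = {x : R3 | ∃ n : ℤ, (n : ℝ) + 9 / 16 < x 2 ∧ x 2 < (n : ℝ) + 11 / 16} ∧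
      Computable₂ compiler ∧
      ∀ M : Machine, M.Valid →
        (∃ P : ℝ, 0 < P ∧ ∀ w : List ℕ, (∀ s ∈ w, s ≤ M.1) →
          ∀ t, T0 ≤ t → ∀ x, F M w (t + P) x = F M w t x) ∧
        (∀ w w' : List ℕ, (∀ s ∈ w, s ≤ M.1) → (∀ s ∈ w', s ≤ M.1) →
          ∀ t, T0 ≤ t → ∀ x, F M w t x = F M w' t x) ∧
        ∀ w : List ℕ, (∀ s ∈ w, s ≤ M.1) →
          IsSmoothForce (F M w) ∧ ComputesForce (compiler M w) (F M w) ∧
          ∃ (u : ℝ → R3 → R3) (p : ℝ → R3 → ℝ),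
            ContDiff ℝ ∞ (fun z : ℝ × R3 => u z.1 z.2) ∧
            ContDiff ℝ ∞ (fun z : ℝ × R3 => p z.1 z.2) ∧
            (∀ T, 0 < T → IsClassicalSol ν (F M w) T u p) ∧
            (∀ T, 0 < T → ∀ v q, IsClassicalSol ν (F M w) T v q →
              ∀ t ∈ Icc (0 : ℝ) T, ∀ x, v t x = u t x ∧ q t x = p t x) ∧
            (∃ X, IsTrajectory u a X) ∧
            ∀ X, IsTrajectory u a X → ((∃ t, 0 ≤ t ∧ X t ∈ O) ↔ M.HaltsOn w) :=
  main_theorem ν hν hc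

end Vale.Agent.Results.P113.ForcedNSHalting
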