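import Vale.Agent.Lib.P113.Assemble
import Vale.Agent.Lib.P113_helper29.Assembly

/-!
P113, full statement in a sharpened form: the base point `0`, the open set, the time `T0 = 1` and the
period `10` are explicit and the same for all viscosities and machines; the compiler is total and
correct on all tables and words, well formed or not.
-/

namespace Vale.Agent.Results.P113.UniformCompiler

open Vale.Agent.Lib.P113 Set
open scoped ContDiff

theorem result (ν : ℝ) (hν : 0 < ν) (hc : IsComputableReal ν) :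
    ∃ (O : Set R3) (F : Machine → List ℕ → ℝ → R3 → R3)
      (compiler : Machine → List ℕ → Nat.Partrec.Code),
      O = {x : R3 | ∃ n : ℤ, (n : ℝ) + 9 / 16 < x 2 ∧ x 2 < (n : ℝ) + 11 / 16} ∧
      IsOpen O ∧ (∀ (x : R3) (i : Fin 3), x + Pi.single i 1 ∈ O ↔ x ∈ O) ∧
      Computable₂ compiler ∧
      (∀ M w, IsSmoothForce (F M w) ∧ ComputesForce (compiler M w) (F M w)) ∧
      (∀ M w t, 1 ≤ t → ∀ x, F M w (t + 10) x = F M w t x) ∧
      (∀ M w w' t, 1 ≤ t → ∀ x, F M w t x = F M w' t x) ∧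
      ∀ M : Machine, M.Valid → ∀ w : List ℕ, (∀ s ∈ w, s ≤ M.1) →
        ∃ (u : ℝ → R3 → R3) (p : ℝ → R3 → ℝ),
          ContDiff ℝ ∞ (fun z : ℝ × R3 => u z.1 z.2) ∧
          ContDiff ℝ ∞ (fun z : ℝ × R3 => p z.1 z.2) ∧
          (∀ T, 0 < T → IsClassicalSol ν (F M w) T u p) ∧
          (∀ T, 0 < T → ∀ v q, IsClassicalSol ν (F M w) T v q →
            ∀ t ∈ Icc (0 : ℝ) T, ∀ x, v t x = u t x ∧ q t x = p t x) ∧
          (∃ X, IsTrajectory u 0 X) ∧
          ∀ X, IsTrajectory u 0 X → ((∃ t, 0 ≤ t ∧ X t ∈ O) ↔ M.HaltsOn w) := by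
  obtain ⟨comp, hcomp, hforce⟩ := exists_force_compiler hc
  exact ⟨slab, fun M w => force ν (flowData M w), fun M w => comp (flowData M w), rfl,
    slab_open, slab_periodic, hcomp.comp primrec_flowData.to_comp,
    fun M w => ⟨⟨force_contDiff ν _, force_per ν _⟩, hforce _⟩,
    fun M w t ht x => main_periodic ν M w t ht x,
    fun M w w' t ht x => main_indep ν M w w' t ht x,
    fun M hM w hw => (main_dyn ν hν M hM w hw).2⟩

end Vale.Agent.Results.P113.UniformCompiler
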